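import Mathlib
import Vale.Agent.Lib.P322.Lin
import Vale.Agent.Lib.P322.Cov

/-!
# P322, job M6: exact second, fourth and sixth moments of an affine form on the Boolean cube
-/

namespace Vale.Agent.Lib.P322

open Finset

lemma avg_half_add6 (n : ℕ) (f g : (Fin n → Bool) → ℝ) :
    (avg n f + avg n g) / 2 = avg n (fun x => 1 / 2 * f x + 1 / 2 * g x) := by
  rw [avg_lin]; ring

lemma avg_congr_fun6 (n : ℕ) (f g : (Fin n → Bool) → ℝ) (h : ∀ x, f x = g x) :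
    avg n f = avg n g := by
  have : f = g := funext h
  rw [this]

theorem moments6 : ∀ (n : ℕ) (m0 : ℝ) (a : Fin n → ℝ),
    avg n (fun x => (m0 + lin n a x) ^ 2) = m0 ^ 2 + nsq n a ∧
    avg n (fun x => (m0 + lin n a x) ^ 4) =
      3 * (m0 ^ 2 + nsq n a) ^ 2 - 2 * (m0 ^ 4 + ∑ j, a j ^ 4) ∧
    avg n (fun x => (m0 + lin n a x) ^ 6) =
      15 * (m0 ^ 2 + nsq n a) ^ 3 - 30 * (m0 ^ 2 + nsq n a) * (m0 ^ 4 + ∑ j, a j ^ 4) +
        16 * (m0 ^ 6 + ∑ j, a j ^ 6) := by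
  intro n
  induction n with
  | zero =>
    intro m0 a
    have hl : ∀ (c : Fin 0 → ℝ) (x : Fin 0 → Bool), lin 0 c x = 0 := by
      intro c x; simp [lin]
    have hn : ∀ c : Fin 0 → ℝ, nsq 0 c = 0 := by
      intro c; simp [nsq]
    simp only [hl, hn, avg_const, add_zero, Finset.univ_eq_empty, Finset.sum_empty]
    refine ⟨trivial, ?_, ?_⟩ <;> ring
  | succ n ih =>
    intro m0 a
    obtain ⟨I2, I4, I6⟩ := ih m0 (Fin.tail a)
    have s4 : ∑ j, a j ^ 4 = a 0 ^ 4 + ∑ j, (Fin.tail a) j ^ 4 := by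
      rw [Fin.sum_univ_succ]; rfl
    have s6 : ∑ j, a j ^ 6 = a 0 ^ 6 + ∑ j, (Fin.tail a) j ^ 6 := by
      rw [Fin.sum_univ_succ]; rfl
    rw [avg_succ, avg_succ, avg_succ, nsq_succ, s4, s6]
    simp only [lin_cons, sgn_true, sgn_false]
    rw [avg_half_add6, avg_half_add6, avg_half_add6]
    refine ⟨?_, ?_, ?_⟩
    · have e : ∀ x : Fin n → Bool,
          1 / 2 * (m0 + (a 0 * 1 + lin n (Fin.tail a) x)) ^ 2 +
          1 / 2 * (m0 + (a 0 * -1 + lin n (Fin.tail a) x)) ^ 2 =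
          (m0 + lin n (Fin.tail a) x) ^ 2 + a 0 ^ 2 := by
        intro x; ring
      rw [avg_congr_fun6 n _ _ e, avg_add, avg_const, I2]
      ring
    · have e : ∀ x : Fin n → Bool,
          1 / 2 * (m0 + (a 0 * 1 + lin n (Fin.tail a) x)) ^ 4 +
          1 / 2 * (m0 + (a 0 * -1 + lin n (Fin.tail a) x)) ^ 4 =
          (m0 + lin n (Fin.tail a) x) ^ 4 +
            (6 * a 0 ^ 2 * (m0 + lin n (Fin.tail a) x) ^ 2 + a 0 ^ 4) := by
        intro x; ring
      rw [avg_congr_fun6 n _ _ e, avg_add, avg_add, avg_mul_left, avg_const, I4, I2]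
      ring
    · have e : ∀ x : Fin n → Bool,
          1 / 2 * (m0 + (a 0 * 1 + lin n (Fin.tail a) x)) ^ 6 +
          1 / 2 * (m0 + (a 0 * -1 + lin n (Fin.tail a) x)) ^ 6 =
          (m0 + lin n (Fin.tail a) x) ^ 6 +
            (15 * a 0 ^ 2 * (m0 + lin n (Fin.tail a) x) ^ 4 +
              (15 * a 0 ^ 4 * (m0 + lin n (Fin.tail a) x) ^ 2 + a 0 ^ 6)) := by
        intro x; ring
      rw [avg_congr_fun6 n _ _ e, avg_add, avg_add, avg_add, avg_mul_left, avg_mul_left,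
        avg_const, I6, I4, I2]
      ring

end Vale.Agent.Lib.P322
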